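import Mathlib

namespace Vale.Agent.Lib.P209

theorem cap_sum_ge_m {α : Type} [Fintype α] (n : ℕ) (ν t R : ℝ) (M Nf : ℕ) (sz : α → ℕ)
    (hν : 0 ≤ 1 - ν) (ht : 0 ≤ t) (hcount : M ^ n ≤ Nf + ∑ c, sz c ^ n)
    (hMt : (M : ℝ) * t = R) :
    (1 - ν) ^ n * R ^ n ≤
      ∑ c, ((1 - ν) * ((sz c : ℝ) * t)) ^ n + (Nf : ℝ) * ((1 - ν) * t) ^ n := by
  have hk : 0 ≤ (1 - ν) ^ n * t ^ n := mul_nonneg (pow_nonneg hν n) (pow_nonneg ht n)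
  have hc : ((M : ℝ)) ^ n ≤ (Nf : ℝ) + ∑ c, ((sz c : ℝ)) ^ n := by
    exact_mod_cast hcount
  have hl : (1 - ν) ^ n * R ^ n = (1 - ν) ^ n * t ^ n * (M : ℝ) ^ n := by
    rw [← hMt, mul_pow]
    ring
  have hr : ∑ c, ((1 - ν) * ((sz c : ℝ) * t)) ^ n + (Nf : ℝ) * ((1 - ν) * t) ^ n =
      (1 - ν) ^ n * t ^ n * ((Nf : ℝ) + ∑ c, ((sz c : ℝ)) ^ n) := by
    rw [mul_add, Finset.mul_sum, add_comm]
    congr 1
    · rw [mul_pow]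
      ring
    · refine Finset.sum_congr rfl fun c _ => ?_
      rw [mul_pow, mul_pow]
      ring
  rw [hl, hr]
  exact mul_le_mul_of_nonneg_left hc hk

end Vale.Agent.Lib.P209
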