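import Vale.Agent.Lib.P209.Coarse

namespace Vale.Agent.Lib.P209

open Finset

/-- Coarse cubes of `m` bands of lengths `s j * t` (one cube of size `sz κc * t` for every
colouring `κc`) together with the fine cells of size `t` which lie in none of them. -/
theorem packing_coarse_fine_m {n : ℕ} (hn : 0 < n) (m M : ℕ) (s : Fin m → ℕ)
    (hsum : ∑ j, s j = M) (sz : (Fin n → Fin m) → ℕ) (hsz : ∀ κc p, sz κc ≤ s (κc p))
    (hperm : ∀ (κc : Fin n → Fin m) (π : Equiv.Perm (Fin n)), sz (fun p => κc (π p)) = sz κc)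
    (t : ℝ) (ht : 0 < t) (C : (Fin n → Fin m) → ℝ) (hC0 : ∀ κc, 0 < C κc)
    (hC : ∀ κc, C κc < sz κc * t) (τ : ℝ) (hτ0 : 0 < τ) (hτ : τ < t) :
    PackingInto n (capOpenBall n (M * t))
      (fun j : (Fin n → Fin m) ⊕ {κ : Fin n → Fin M // ¬ ∃ κc : Fin n → Fin m, ∀ p,
          (∑ l : Fin m, if l < κc p then s l else 0) ≤ (κ p).val ∧
          (κ p).val < (∑ l : Fin m, if l < κc p then s l else 0) + sz κc} =>
        Sum.elim C (fun _ => τ) j) := by
  classical
  obtain ⟨bc, hbcdef⟩ : ∃ bc : Fin m → ℝ, ∀ j, bc j = (s j : ℝ) * t := ⟨_, fun _ => rfl⟩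
  have hbc : ∀ c, 0 ≤ bc c := by
    intro c
    rw [hbcdef]
    positivity
  have hbcsum : ∑ c, bc c = M * t := by
    rw [← hsum]
    push_cast
    rw [Finset.sum_mul]
    exact Finset.sum_congr rfl (fun j _ => hbcdef j)
  have hoff : ∀ j : Fin m, bandOff bc j =
      ((∑ l : Fin m, if l < j then s l else 0 : ℕ) : ℝ) * t := by
    intro j
    unfold bandOff
    push_cast
    rw [Finset.sum_mul]
    apply Finset.sum_congr rfl
    intro l _
    split_ifs
    · exact hbcdef l
    · simp
  have hbt : ∀ j : Fin M, 0 ≤ (fun _ : Fin M => t) j := fun _ => ht.le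
  have hsumt : ∑ _j : Fin M, t = M * t := by
    rw [Finset.sum_const, Finset.card_univ, Fintype.card_fin, nsmul_eq_mul]
  have hszle : ∀ (κc : Fin n → Fin m) (p : Fin n), (sz κc : ℝ) * t ≤ bc (κc p) := by
    intro κc p
    rw [hbcdef]
    exact mul_le_mul_of_nonneg_right (by exact_mod_cast hsz κc p) ht.le
  have key : ∀ (κc : Fin n → Fin m) (κ : {κ : Fin n → Fin M // ¬ ∃ κc : Fin n → Fin m, ∀ p,
      (∑ l : Fin m, if l < κc p then s l else 0) ≤ (κ p).val ∧
      (κ p).val < (∑ l : Fin m, if l < κc p then s l else 0) + sz κc}) (X : Fin n → ℝ),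
      X ∈ bandSet bc κc ((sz κc : ℝ) * t) → X ∈ bandSet (fun _ : Fin M => t) κ.1 t →
      False := by
    intro κc κ X hX hX'
    obtain ⟨y, hy, hyi⟩ := bandSet_y hX
    obtain ⟨y', hy', hyi'⟩ := bandSet_y hX'
    have hyy : y' = y := dmap_injective (hy'.trans hy.symm)
    rw [hyy] at hyi'
    have hszeq : sz (fun p => κc (Tuple.sort κc ((Tuple.sort κ.1).symm p))) = sz κc :=
      hperm κc ((Tuple.sort κ.1).symm.trans (Tuple.sort κc))
    have hgoal : ∀ p : Fin n,
        (∑ l : Fin m, if l < κc (Tuple.sort κc ((Tuple.sort κ.1).symm p)) then s l else 0) ≤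
          (κ.1 p).val ∧
        (κ.1 p).val <
          (∑ l : Fin m, if l < κc (Tuple.sort κc ((Tuple.sort κ.1).symm p)) then s l else 0) +
            sz κc := by
      intro p
      have h1 := hyi ((Tuple.sort κ.1).symm p)
      have h2 := hyi' ((Tuple.sort κ.1).symm p)
      rw [Equiv.apply_symm_apply, bandOff_const] at h2
      rw [hoff] at h1
      obtain ⟨O, hO⟩ : ∃ O : ℕ, O = ∑ l : Fin m,
          if l < κc (Tuple.sort κc ((Tuple.sort κ.1).symm p)) then s l else 0 := ⟨_, rfl⟩
      rw [← hO] at h1 ⊢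
      constructor
      · have h3 : (O : ℝ) * t < (((κ.1 p).val : ℝ) + 1) * t := by
          linarith [h1.1, h2.2]
        have h4 := lt_of_mul_lt_mul_right h3 ht.le
        have h5 : O < (κ.1 p).val + 1 := by exact_mod_cast h4
        omega
      · have h3 : ((κ.1 p).val : ℝ) * t < ((O : ℝ) + (sz κc : ℝ)) * t := by
          linarith [h1.2, h2.1]
        have h4 := lt_of_mul_lt_mul_right h3 ht.le
        exact_mod_cast h4
    apply κ.2
    refine ⟨fun p => κc (Tuple.sort κc ((Tuple.sort κ.1).symm p)), fun p => ?_⟩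
    rw [hszeq]
    exact hgoal p
  apply packingInto_of_goodEmb
    (fun j : (Fin n → Fin m) ⊕ {κ : Fin n → Fin M // ¬ ∃ κc : Fin n → Fin m, ∀ p,
        (∑ l : Fin m, if l < κc p then s l else 0) ≤ (κ p).val ∧
        (κ p).val < (∑ l : Fin m, if l < κc p then s l else 0) + sz κc} =>
      Sum.elim (fun κc : Fin n → Fin m => bandSet bc κc ((sz κc : ℝ) * t))
        (fun κ => bandSet (fun _ : Fin M => t) κ.1 t) j)
  · intro j
    cases j with
    | inl κc =>
      show ∃ Ψ, GoodEmb n (C κc) Ψ (bandSet bc κc ((sz κc : ℝ) * t))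
      exact goodEmb_band hbc (hC0 κc).le (hC κc) (hszle κc)
    | inr κ => exact goodEmb_band hbt hτ0.le hτ (fun _ => le_refl t)
  · intro j X hX
    cases j with
    | inl κc =>
      have h1 := (bandSet_sub hn hbc (hszle κc)
        (show X ∈ bandSet bc κc ((sz κc : ℝ) * t) from hX)).2
      rw [hbcsum] at h1
      exact h1
    | inr κ =>
      have h1 := (bandSet_sub hn hbt (fun _ => le_refl t)
        (show X ∈ bandSet (fun _ : Fin M => t) κ.1 t from hX)).2
      rw [hsumt] at h1
      exact h1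
  · intro j j' hne
    rw [Set.disjoint_left]
    intro X hX hX'
    cases j with
    | inl κc =>
      cases j' with
      | inl κc' =>
        have hd := bandSet_disjoint hbc (κ := κc) (κ' := κc') (hszle κc) (hszle κc')
          (fun h => hne (by rw [h]))
        exact Set.disjoint_left.mp hd hX hX'
      | inr κ' => exact key κc κ' X hX hX'
    | inr κ =>
      cases j' with
      | inl κc' => exact key κc' κ X hX' hX
      | inr κ' =>
        have hd := bandSet_disjoint hbt (κ := κ.1) (κ' := κ'.1) (fun _ => le_refl t)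
          (fun _ => le_refl t) (fun h => hne (by rw [Subtype.ext h]))
        exact Set.disjoint_left.mp hd hX hX'

end Vale.Agent.Lib.P209
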