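import Mathlib

namespace Vale.Agent.Lib.P209

/-- splitting a finite type along a predicate whose true set lies in a finset `T` -/
theorem ms_card_split {α : Type*} [Fintype α] (P : α → Prop) [Fintype {x // ¬ P x}]
    (T : Finset α) (hT : ∀ x, P x → x ∈ T) :
    Fintype.card α ≤ Fintype.card {x // ¬ P x} + T.card := by
  classical
  have h1 : Fintype.card {x // ¬ P x} = (Finset.univ.filter (fun x => ¬ P x)).card :=
    Fintype.card_of_subtype _ (fun x => by simp)
  rw [h1, ← Finset.card_univ]
  calc (Finset.univ : Finset α).card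
      ≤ ((Finset.univ.filter (fun x => ¬ P x)) ∪ T).card := by
        apply Finset.card_le_card
        intro x _
        by_cases hx : P x
        · exact Finset.mem_union_right _ (hT x hx)
        · exact Finset.mem_union_left _ (by simp [hx])
    _ ≤ (Finset.univ.filter (fun x => ¬ P x)).card + T.card := Finset.card_union_le _ _

/-- a window of length `k` contains at most `k` elements of `Fin M` -/
theorem ms_fin_window_card (M a k : ℕ) :
    (Finset.univ.filter (fun x : Fin M => a ≤ x.val ∧ x.val < a + k)).card ≤ k := by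
  have h : (Finset.univ.filter (fun x : Fin M => a ≤ x.val ∧ x.val < a + k)).card
      ≤ (Finset.Ico a (a + k)).card := by
    apply Finset.card_le_card_of_injOn (fun x : Fin M => x.val)
    · intro x hx
      have hx' := Finset.mem_filter.1 (Finset.mem_coe.1 hx)
      exact Finset.mem_coe.2 (Finset.mem_Ico.2 ⟨hx'.2.1, hx'.2.2⟩)
    · intro x _ y _ hxy
      exact Fin.ext hxy
  rw [Nat.card_Ico] at h
  omega

/-- every fine cell is free or lies in one of the coarse cubes -/
theorem coarse_fine_card_m (n m M : ℕ) (s : Fin m → ℕ) (sz : (Fin n → Fin m) → ℕ) :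
    M ^ n ≤ Fintype.card {κ : Fin n → Fin M // ¬ ∃ κc : Fin n → Fin m, ∀ p,
        (∑ l : Fin m, if l < κc p then s l else 0) ≤ (κ p).val ∧
        (κ p).val < (∑ l : Fin m, if l < κc p then s l else 0) + sz κc} +
      ∑ κc : Fin n → Fin m, sz κc ^ n := by
  have hT : ∀ κ : Fin n → Fin M, (∃ κc : Fin n → Fin m, ∀ p,
        (∑ l : Fin m, if l < κc p then s l else 0) ≤ (κ p).val ∧
        (κ p).val < (∑ l : Fin m, if l < κc p then s l else 0) + sz κc) →
      κ ∈ (Finset.univ : Finset (Fin n → Fin m)).biUnion (fun κc =>
        Fintype.piFinset (fun p : Fin n => Finset.univ.filter (fun x : Fin M =>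
          (∑ l : Fin m, if l < κc p then s l else 0) ≤ x.val ∧
          x.val < (∑ l : Fin m, if l < κc p then s l else 0) + sz κc))) := by
    rintro κ ⟨κc, h⟩
    refine Finset.mem_biUnion.2 ⟨κc, Finset.mem_univ _, Fintype.mem_piFinset.2 fun p => ?_⟩
    exact Finset.mem_filter.2 ⟨Finset.mem_univ _, h p⟩
  have hTcard : ((Finset.univ : Finset (Fin n → Fin m)).biUnion (fun κc =>
        Fintype.piFinset (fun p : Fin n => Finset.univ.filter (fun x : Fin M =>
          (∑ l : Fin m, if l < κc p then s l else 0) ≤ x.val ∧
          x.val < (∑ l : Fin m, if l < κc p then s l else 0) + sz κc)))).card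
      ≤ ∑ κc : Fin n → Fin m, sz κc ^ n := by
    refine le_trans Finset.card_biUnion_le (Finset.sum_le_sum fun κc _ => ?_)
    rw [Fintype.card_piFinset]
    calc ∏ p : Fin n, (Finset.univ.filter (fun x : Fin M =>
          (∑ l : Fin m, if l < κc p then s l else 0) ≤ x.val ∧
          x.val < (∑ l : Fin m, if l < κc p then s l else 0) + sz κc)).card
        ≤ ∏ _p : Fin n, sz κc :=
          Finset.prod_le_prod (fun p _ => Nat.zero_le _)
            (fun p _ => ms_fin_window_card M _ (sz κc))
      _ = sz κc ^ n := by simp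
  have hMn : M ^ n = Fintype.card (Fin n → Fin M) := by simp
  rw [hMn]
  exact le_trans (ms_card_split _ _ hT) (Nat.add_le_add_left hTcard _)

end Vale.Agent.Lib.P209
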