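import Mathlib

namespace Vale.Agent.Lib.P209

/-- a scale `R / (2 m')` between `X / 2` and `X` -/
theorem ms_exists_scale (R X : ℝ) (hX : 0 < X) (hXR : 2 * X ≤ R) :
    ∃ m' : ℕ, 0 < m' ∧ R / (2 * (m' : ℝ)) ≤ X ∧ X < 2 * (R / (2 * (m' : ℝ))) := by
  have hR : 0 < R := by linarith
  have hpos : 0 < R / (2 * X) := by positivity
  obtain ⟨M, hM0, hM1, hM2⟩ : ∃ M : ℕ, 0 < M ∧ R / (2 * X) ≤ M ∧ (M : ℝ) < R / (2 * X) + 1 :=
    ⟨⌈R / (2 * X)⌉₊, Nat.ceil_pos.mpr hpos, Nat.le_ceil _, Nat.ceil_lt_add_one hpos.le⟩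
  have hMR : (0 : ℝ) < M := by exact_mod_cast hM0
  have h1 : R ≤ M * (2 * X) := (div_le_iff₀ (by positivity)).mp hM1
  have h2 : (M : ℝ) * (2 * X) < R + 2 * X := by
    have h3 : (M : ℝ) * (2 * X) < (R / (2 * X) + 1) * (2 * X) :=
      mul_lt_mul_of_pos_right hM2 (by positivity)
    have h4 : (R / (2 * X) + 1) * (2 * X) = R + 2 * X := by field_simp
    linarith
  refine ⟨M, hM0, ?_, ?_⟩
  · rw [div_le_iff₀ (by positivity)]
    linarith
  · have h5 : 2 * (R / (2 * (M : ℝ))) = R / M := by field_simp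
    rw [h5, lt_div_iff₀ hMR]
    linarith

/-- a fine scale `t` with `M t = R` and band lengths `s j * t` slightly longer than `β j` -/
theorem scale_params_m (m : ℕ) (hm : 1 ≤ m) (R G θ : ℝ) (β : Fin m → ℝ) (hG : 0 < G)
    (hβ0 : ∀ j, 0 ≤ β j) (hβ : ∑ j, β j ≤ R - m * G) (hθ0 : 0 < θ) (hθ : θ ≤ 1 / 256) :
    ∃ (M : ℕ) (s : Fin m → ℕ) (t : ℝ), 0 < t ∧ t ≤ θ * G ∧ θ * G < 2 * t ∧ ∑ j, s j = M ∧
      (M : ℝ) * t = R ∧ ∀ j, β j + G / 2 < (s j : ℝ) * t := by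
  classical
  have hm1 : (1 : ℝ) ≤ m := by exact_mod_cast hm
  have hsum0 : 0 ≤ ∑ j, β j := Finset.sum_nonneg fun j _ => hβ0 j
  have hmG : (m : ℝ) * G ≤ R := by linarith
  have hGR : G ≤ R := by nlinarith
  have hX : 0 < θ * G := mul_pos hθ0 hG
  have hXG : θ * G ≤ G / 256 := by nlinarith
  have hXR : 2 * (θ * G) ≤ R := by linarith
  obtain ⟨M0, hM0, ht1, ht2⟩ := ms_exists_scale R (θ * G) hX hXR
  have hM0R : (0 : ℝ) < M0 := by exact_mod_cast hM0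
  obtain ⟨t, ht⟩ : ∃ t : ℝ, t = R / (2 * (M0 : ℝ)) := ⟨_, rfl⟩
  rw [← ht] at ht1 ht2
  have hR : 0 < R := by linarith
  have htpos : 0 < t := by
    rw [ht]
    positivity
  have hMt : ((2 * M0 : ℕ) : ℝ) * t = R := by
    rw [ht]
    push_cast
    field_simp
  obtain ⟨σ, hσ⟩ : ∃ σ : Fin m → ℕ, ∀ j, σ j = ⌊(β j + G / 2) / t⌋₊ + 1 := ⟨_, fun _ => rfl⟩
  have hσ1 : ∀ j, β j + G / 2 < (σ j : ℝ) * t := by
    intro j
    have h := Nat.lt_floor_add_one ((β j + G / 2) / t)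
    rw [div_lt_iff₀ htpos] at h
    rw [hσ j]
    push_cast
    exact h
  have hσ2 : ∀ j, (σ j : ℝ) * t ≤ β j + G / 2 + t := by
    intro j
    have hb := hβ0 j
    have hnn : 0 ≤ (β j + G / 2) / t := by positivity
    have h := Nat.floor_le hnn
    rw [le_div_iff₀ htpos] at h
    rw [hσ j]
    push_cast
    linarith
  have hsumσ : ((∑ j, σ j : ℕ) : ℝ) * t ≤ ∑ j, β j + m * (G / 2 + t) := by
    push_cast
    rw [Finset.sum_mul]
    calc ∑ j, (σ j : ℝ) * t ≤ ∑ j, (β j + (G / 2 + t)) :=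
          Finset.sum_le_sum fun j _ => by linarith [hσ2 j]
      _ = ∑ j, β j + m * (G / 2 + t) := by
          rw [Finset.sum_add_distrib, Finset.sum_const, Finset.card_univ, Fintype.card_fin,
            nsmul_eq_mul]
  have htG : t ≤ G / 256 := by linarith
  have hmt : (m : ℝ) * t ≤ m * (G / 256) := mul_le_mul_of_nonneg_left htG (by positivity)
  have hmGpos : 0 < (m : ℝ) * G := by positivity
  have hlt : ((∑ j, σ j : ℕ) : ℝ) * t < ((2 * M0 : ℕ) : ℝ) * t := by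
    rw [hMt]
    nlinarith
  have hle : ∑ j, σ j ≤ 2 * M0 := by
    have h := lt_of_mul_lt_mul_right hlt htpos.le
    exact_mod_cast h.le
  obtain ⟨j0, hj0⟩ : ∃ j0 : Fin m, j0 = ⟨0, hm⟩ := ⟨_, rfl⟩
  refine ⟨2 * M0, fun j => σ j + (if j = j0 then 2 * M0 - ∑ i, σ i else 0), t, htpos, ht1, ht2,
    ?_, hMt, ?_⟩
  · rw [Finset.sum_add_distrib, Finset.sum_ite_eq' Finset.univ j0 (fun _ => 2 * M0 - ∑ i, σ i),
      if_pos (Finset.mem_univ j0)]
    exact Nat.add_sub_cancel' hle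
  · intro j
    have h2 : (σ j : ℝ) ≤ ((σ j + (if j = j0 then 2 * M0 - ∑ i, σ i else 0) : ℕ) : ℝ) := by
      exact_mod_cast Nat.le_add_right _ _
    calc β j + G / 2 < (σ j : ℝ) * t := hσ1 j
      _ ≤ ((σ j + (if j = j0 then 2 * M0 - ∑ i, σ i else 0) : ℕ) : ℝ) * t :=
          mul_le_mul_of_nonneg_right h2 htpos.le

end Vale.Agent.Lib.P209
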