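import Vale.Agent.Lib.P209.Rank

namespace Vale.Agent.Lib.P209

/-- distinct colourings for `k ≤ m ^ n` ranks, the colouring of rank `r` using only colours
`≤ r` -/
theorem exists_slots {n m k : ℕ} (hn : 0 < n) (hk : k ≤ m ^ n) :
    ∃ slot : Fin k → (Fin n → Fin m), Function.Injective slot ∧
      ∀ (r : Fin k) (p : Fin n), (slot r p).val ≤ r.val := by
  classical
  have hn0 : n ≠ 0 := by omega
  obtain ⟨J, hJ⟩ : ∃ J : ℕ → ℕ, ∀ r, J r ^ n ≤ r ∧ r < (J r + 1) ^ n :=
    ⟨fun r => (exists_root n hn r).choose, fun r => (exists_root n hn r).choose_spec⟩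
  have hJm : ∀ r, r < k → J r < m := by
    intro r hr
    have h1 : J r ^ n < m ^ n := lt_of_le_of_lt (hJ r).1 (lt_of_lt_of_le hr hk)
    exact (Nat.pow_lt_pow_iff_left hn0).mp h1
  obtain ⟨slot, hinj, hslotC⟩ := exists_injective_choice k
    (fun r => Finset.univ.filter (fun κ : Fin n → Fin m => ∀ p, (κ p).val ≤ J r)) (by
      intro r hr
      have h1 := card_colourings_le (n := n) (J r) (hJm r hr)
      have h2 := (hJ r).2
      omega)
  refine ⟨slot, hinj, ?_⟩
  intro r p
  have h1 : ((slot r) p).val ≤ J r.val := (Finset.mem_filter.mp (hslotC r)).2 p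
  have h2 : J r.val ≤ J r.val ^ n := Nat.le_self_pow hn0 (J r.val)
  exact le_trans h1 (le_trans h2 (hJ r.val).1)

end Vale.Agent.Lib.P209
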