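import Mathlib

namespace Vale.Agent.Lib.P209

/-- the elements of a finite set of indices can be listed in non-increasing order of `a` -/
theorem exists_antitone_enum {N : ℕ} (a : Fin N → ℝ) (S : Finset (Fin N)) :
    ∃ ρ : Fin S.card ≃ {i : Fin N // i ∈ S}, Antitone (fun r => a (ρ r).1) := by
  classical
  let e0 : Fin S.card ≃ {i : Fin N // i ∈ S} := S.equivFin.symm
  let g : Fin S.card → ℝ := fun r => -(a (e0 r).1)
  have hmono : Monotone (g ∘ Tuple.sort g) := Tuple.monotone_sort g
  refine ⟨(Tuple.sort g).trans e0, ?_⟩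
  intro r s hrs
  have h := hmono hrs
  have h1 : -(a (e0 (Tuple.sort g r)).1) ≤ -(a (e0 (Tuple.sort g s)).1) := h
  have h2 : a (e0 (Tuple.sort g s)).1 ≤ a (e0 (Tuple.sort g r)).1 := neg_le_neg_iff.mp h1
  exact h2

end Vale.Agent.Lib.P209
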