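import Mathlib

namespace Vale.Agent.Lib.P209

/-- the size of the cube of a colouring: the least band length it uses -/
theorem exists_sz {n m : ℕ} (hn : 0 < n) (s : Fin m → ℕ) :
    ∃ sz : (Fin n → Fin m) → ℕ, (∀ κc p, sz κc ≤ s (κc p)) ∧
      (∀ κc, ∃ p, sz κc = s (κc p)) ∧
      ∀ (κc : Fin n → Fin m) (π : Equiv.Perm (Fin n)), sz (fun p => κc (π p)) = sz κc := by
  have hne : (Finset.univ : Finset (Fin n)).Nonempty := ⟨⟨0, hn⟩, Finset.mem_univ _⟩
  refine ⟨fun κc => Finset.univ.inf' hne (fun p => s (κc p)), ?_, ?_, ?_⟩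
  · intro κc p
    exact Finset.inf'_le (fun p => s (κc p)) (Finset.mem_univ p)
  · intro κc
    obtain ⟨p, -, hp⟩ := Finset.exists_mem_eq_inf' hne (fun p => s (κc p))
    exact ⟨p, hp⟩
  · intro κc π
    apply le_antisymm
    · apply Finset.le_inf'
      intro p _
      have h : Finset.univ.inf' hne (fun q => s (κc (π q))) ≤ s (κc (π (π.symm p))) :=
        Finset.inf'_le (fun q => s (κc (π q))) (Finset.mem_univ (π.symm p))
      rw [Equiv.apply_symm_apply] at h
      exact h
    · apply Finset.le_inf'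
      intro p _
      exact Finset.inf'_le (fun q => s (κc q)) (Finset.mem_univ (π p))

end Vale.Agent.Lib.P209
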