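import Mathlib

namespace Vale.Agent.Lib.P209

/-- if every at most `m` elements of `S` have `a`-sum at most `B`, then so do the first `m`
elements of any enumeration of `S` -/
theorem top_sum_le {N m : ℕ} (a : Fin N → ℝ) (S : Finset (Fin N))
    (ρ : Fin S.card ≃ {i : Fin N // i ∈ S}) (B : ℝ)
    (hM : ∀ T : Finset (Fin N), T ⊆ S → T.card ≤ m → ∑ i ∈ T, a i ≤ B) :
    ∑ j : Fin m, (if h : j.val < S.card then a (ρ ⟨j.val, h⟩).1 else 0) ≤ B := by
  classical
  obtain ⟨k, hkdef⟩ : ∃ k : ℕ, k = min m S.card := ⟨_, rfl⟩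
  have hk1 : k ≤ m := by
    rw [hkdef]
    exact min_le_left _ _
  have hk2 : k ≤ S.card := by
    rw [hkdef]
    exact min_le_right _ _
  obtain ⟨g, hgdef⟩ : ∃ g : Fin k → Fin N, ∀ r, g r = (ρ (Fin.castLE hk2 r)).1 :=
    ⟨_, fun _ => rfl⟩
  have hg : Function.Injective g := by
    intro r r' h
    rw [hgdef, hgdef] at h
    have h1 : ρ (Fin.castLE hk2 r) = ρ (Fin.castLE hk2 r') := Subtype.ext h
    exact Fin.castLE_injective hk2 (ρ.injective h1)
  have hT := hM (Finset.univ.image g) (by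
      intro i hi
      obtain ⟨r, _, rfl⟩ := Finset.mem_image.mp hi
      rw [hgdef]
      exact (ρ (Fin.castLE hk2 r)).2) (by
      rw [Finset.card_image_of_injective _ hg, Finset.card_univ, Fintype.card_fin]
      exact hk1)
  rw [Finset.sum_image (fun x _ y _ h => hg h)] at hT
  obtain ⟨f, hf⟩ : ∃ f : ℕ → ℝ, ∀ v, f v = if h : v < S.card then a (ρ ⟨v, h⟩).1 else 0 :=
    ⟨_, fun _ => rfl⟩
  have h1 : ∑ j : Fin m, f j.val = ∑ v ∈ Finset.range m, f v := Fin.sum_univ_eq_sum_range f m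
  have h2 : ∑ r : Fin k, f r.val = ∑ v ∈ Finset.range k, f v := Fin.sum_univ_eq_sum_range f k
  have h3 : ∑ v ∈ Finset.range k, f v = ∑ v ∈ Finset.range m, f v := by
    apply Finset.sum_subset (Finset.range_subset_range.mpr hk1)
    intro v hv hv'
    have hv1 : v < m := Finset.mem_range.mp hv
    have hv2 : ¬ v < k := fun h => hv' (Finset.mem_range.mpr h)
    have hv3 : ¬ v < S.card := by
      intro h
      apply hv2
      rw [hkdef]
      exact lt_min hv1 h
    rw [hf, dif_neg hv3]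
  have h4 : ∀ r : Fin k, f r.val = a (g r) := by
    intro r
    have hr : r.val < S.card := lt_of_lt_of_le r.isLt hk2
    rw [hf, dif_pos hr, hgdef]
    rfl
  calc ∑ j : Fin m, (if h : j.val < S.card then a (ρ ⟨j.val, h⟩).1 else 0)
      = ∑ j : Fin m, f j.val := Finset.sum_congr rfl (fun j _ => (hf j.val).symm)
    _ = ∑ r : Fin k, f r.val := by rw [h1, h2, h3]
    _ = ∑ r : Fin k, a (g r) := Finset.sum_congr rfl (fun r _ => h4 r)
    _ ≤ B := hT

end Vale.Agent.Lib.P209
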