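import Mathlib

namespace Vale.Agent.Lib.P209

/-- the balls of `S`, placed injectively into the boxes of the band colourings, have total
volume at most that of the big cube -/
theorem big_volume_le_m {N n m : ℕ} (a : Fin N → ℝ) (ha : ∀ i, 0 < a i) (S : Finset (Fin N))
    (ef : {i : Fin N // i ∈ S} → (Fin n → Fin m)) (hef : Function.Injective ef)
    (β : Fin m → ℝ) (hβ0 : ∀ j, 0 ≤ β j)
    (hle : ∀ (x : {i : Fin N // i ∈ S}) (p : Fin n), a x.1 ≤ β (ef x p)) :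
    ∑ i ∈ S, a i ^ n ≤ (∑ j, β j) ^ n := by
  have h1 : ∑ i ∈ S, a i ^ n = ∑ x : {i : Fin N // i ∈ S}, a x.1 ^ n :=
    (Finset.sum_coe_sort S (fun i => a i ^ n)).symm
  have h2 : ∀ x : {i : Fin N // i ∈ S}, a x.1 ^ n ≤ ∏ p : Fin n, β (ef x p) := by
    intro x
    have e : a x.1 ^ n = ∏ _p : Fin n, a x.1 := by
      rw [Finset.prod_const, Finset.card_univ, Fintype.card_fin]
    rw [e]
    exact Finset.prod_le_prod (fun p _ => (ha x.1).le) (fun p _ => hle x p)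
  have h3 : ∑ x : {i : Fin N // i ∈ S}, ∏ p : Fin n, β (ef x p)
      = ∑ κ ∈ Finset.univ.image ef, ∏ p : Fin n, β (κ p) := by
    rw [Finset.sum_image]
    intro x _ y _ hxy
    exact hef hxy
  have h4 : ∑ κ ∈ Finset.univ.image ef, ∏ p : Fin n, β (κ p)
      ≤ ∑ κ : Fin n → Fin m, ∏ p : Fin n, β (κ p) :=
    Finset.sum_le_sum_of_subset_of_nonneg (Finset.subset_univ _)
      (fun κ _ _ => Finset.prod_nonneg (fun p _ => hβ0 (κ p)))
  have h5 : ∑ κ : Fin n → Fin m, ∏ p : Fin n, β (κ p) = (∑ j, β j) ^ n := by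
    have h := Finset.prod_univ_sum (fun (_ : Fin n) => (Finset.univ : Finset (Fin m)))
      (fun (_ : Fin n) (j : Fin m) => β j)
    rw [Fintype.piFinset_univ] at h
    rw [← h, Finset.prod_const, Finset.card_univ, Fintype.card_fin]
  calc ∑ i ∈ S, a i ^ n = ∑ x : {i : Fin N // i ∈ S}, a x.1 ^ n := h1
    _ ≤ ∑ x : {i : Fin N // i ∈ S}, ∏ p : Fin n, β (ef x p) :=
        Finset.sum_le_sum (fun x _ => h2 x)
    _ = ∑ κ ∈ Finset.univ.image ef, ∏ p : Fin n, β (κ p) := h3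
    _ ≤ ∑ κ : Fin n → Fin m, ∏ p : Fin n, β (κ p) := h4
    _ = (∑ j, β j) ^ n := h5

end Vale.Agent.Lib.P209
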