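import Vale.Agent.Lib.P209.PowTwoDust
import Vale.Agent.Lib.P209.MS.Sort
import Vale.Agent.Lib.P209.MS.TopSum
import Vale.Agent.Lib.P209.MS.SlotsM
import Vale.Agent.Lib.P209.MS.ScaleM
import Vale.Agent.Lib.P209.MS.CountM
import Vale.Agent.Lib.P209.MS.VolM
import Vale.Agent.Lib.P209.MS.SzMin
import Vale.Agent.Lib.P209.MS.CapSumM
import Vale.Agent.Lib.P209.MS.CoarseM

/-!
# Up to `m ^ n` balls, every `m` of which have total capacity below `R`, together with many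
small balls
-/

namespace Vale.Agent.Lib.P209

open Finset

theorem gap_m (R G A t X ν : ℝ) (hG : 0 < G) (ht0 : 0 < t) (ht : t ≤ G / 256) (hν0 : 0 ≤ ν)
    (hνR : ν * R ≤ G / 32) (hX : A + G / 2 < X) (hXR : X ≤ R) :
    A + (1 - ν) * t ≤ (1 - ν) * X := by
  have h1 : ν * X ≤ ν * R := mul_le_mul_of_nonneg_left hXR hν0
  have h2 : 0 ≤ ν * t := mul_nonneg hν0 ht0.le
  have e1 : (1 - ν) * t = t - ν * t := by ring
  have e2 : (1 - ν) * X = X - ν * X := by ring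
  rw [e1, e2]
  linarith

/-- The composition step for general coarse cells: coarse cells of capacities `C c`, fine
cells of capacity `τ`, the balls of `S` placed injectively into coarse cells, the small balls
distributed over the free parts. -/
theorem coarse_assemble_gen {n : ℕ} (hn : 2 ≤ n) (d εb εd e : ℝ) (hd0 : 0 < d)
    (hd1 : d ≤ 1 / 2)
    (hbig : ∀ (k : ℕ) (c : ℝ) (a : Fin (k + 1) → ℝ), (∀ i, 0 < a i) → a 0 < c →
      (∀ i, i ≠ 0 → a i ≤ εb * (c - a 0)) →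
      ∑ i, a i ^ n ≤ a 0 ^ n + (1 - d / 8) * (c ^ n - a 0 ^ n) → Packing n (k + 1) c a)
    (hdust : ∀ (k : ℕ) (c : ℝ), 0 < c → ∀ a : Fin k → ℝ, (∀ i, 0 < a i) →
      (∀ i, a i ≤ εd * c) → ∑ i, a i ^ n ≤ (1 - d / 8) * c ^ n → Packing n k c a)
    (he0 : 0 < e) (heb : e ≤ εb) (hed : e ≤ εd) (hed' : e ≤ d / 16)
    {α γ : Type} [Fintype α] [Nonempty α] [Fintype γ] (C : α → ℝ) (τ R : ℝ) (hτ0 : 0 < τ)
    (hτC : ∀ c, τ ≤ C c)
    (hcells : PackingInto n (capOpenBall n R) (fun j : α ⊕ γ => Sum.elim C (fun _ => τ) j))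
    {N : ℕ} (a : Fin N → ℝ) (ha : ∀ i, 0 < a i) (S : Finset (Fin N))
    (ef0 : {i : Fin N // i ∈ S} → α) (hef0 : Function.Injective ef0)
    (hgap0 : ∀ x : {i : Fin N // i ∈ S}, a x.1 + τ ≤ C (ef0 x))
    (hsmall : ∀ i, i ∉ S → a i ≤ e * τ)
    (hcap : R ^ n - d / 8 * (R ^ n - ∑ i ∈ S, a i ^ n) ≤
      ∑ c, C c ^ n + (Fintype.card γ : ℝ) * τ ^ n)
    (hV : 0 ≤ R ^ n - ∑ i ∈ S, a i ^ n)
    (hvol : ∑ i ∈ Sᶜ, a i ^ n ≤ (1 - d) * (R ^ n - ∑ i ∈ S, a i ^ n)) :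
    Packing n N R a := by
  classical
  have hn0 : 0 < n := by omega
  obtain ⟨ef, hefdef⟩ : ∃ ef : {i : Fin N // i ∈ S} → α ⊕ γ,
      ef = fun x => Sum.inl (ef0 x) := ⟨_, rfl⟩
  have hef : Function.Injective ef := by
    rw [hefdef]
    exact fun x y h => hef0 (Sum.inl_injective h)
  obtain ⟨bcap, hb1, hb0⟩ := exists_bcap a S ef hef
  have hbnn := bcap_nonneg a ha S ef bcap hb1 hb0
  have hbsum := bcap_sum hn0 a S ef hef bcap hb1 hb0
  have hNe : Nonempty (α ⊕ γ) := ⟨Sum.inl (Classical.arbitrary α)⟩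
  have hgap : ∀ j : α ⊕ γ, bcap j + τ ≤ Sum.elim C (fun _ => τ) j := by
    intro j
    by_cases h : ∃ x : {i : Fin N // i ∈ S}, ef x = j
    · obtain ⟨x, hx⟩ := h
      rw [← hx, hb1 x, hefdef]
      exact hgap0 x
    · rw [hb0 j (fun x hx => h ⟨x, hx⟩)]
      rcases j with c | g
      · show 0 + τ ≤ C c
        linarith [hτC c]
      · show 0 + τ ≤ τ
        linarith
  refine assemble hn0 (d / 8) εb εd (by linarith) hbig hdust (le_trans he0.le heb)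
    (le_trans he0.le hed) _ bcap R hcells a ha S ef hef τ ((e * τ) ^ n) hτ0 hb1 hb0 hgap
    ?_ ?_ (by positivity) ?_ ?_
  · intro i hi
    exact le_trans (hsmall i hi) (mul_le_mul_of_nonneg_right heb hτ0.le)
  · intro i hi
    exact le_trans (hsmall i hi) (mul_le_mul_of_nonneg_right hed hτ0.le)
  · intro i hi
    exact pow_le_pow_left₀ (ha i).le (hsmall i hi) n
  · apply vol_chain n (by omega) _ bcap d e τ R (∑ i ∈ S, a i ^ n) _ hd0 hd1 he0.le hed'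
      hτ0.le hbnn hgap hbsum _ hV hvol
    rw [Fintype.sum_sum_type]
    simp only [Sum.elim_inl, Sum.elim_inr, Finset.sum_const, Finset.card_univ, nsmul_eq_mul]
    exact hcap

/-- For every `δ > 0` there is `ε > 0` such that: if at most `m ^ n` of the balls (those in
`S`) are such that every at most `m` of them have total capacity at most `R - m * G`, all the
other balls have capacities at most `ε * G`, and the total volume of the other balls is at most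
`1 - δ` times the volume left over by the balls in `S`, then all the balls pack into the open
ball of capacity `R`. -/
theorem msum_dust_packing (n : ℕ) (hn : 2 ≤ n) (δ : ℝ) (hδ : 0 < δ) :
    ∃ ε : ℝ, 0 < ε ∧ ∀ (m N : ℕ) (R G : ℝ) (a : Fin N → ℝ) (S : Finset (Fin N)), 1 ≤ m →
      S.card ≤ m ^ n → 0 < G → (m : ℝ) * G ≤ R → (∀ i, 0 < a i) →
      (∀ T : Finset (Fin N), T ⊆ S → T.card ≤ m → ∑ i ∈ T, a i ≤ R - m * G) →
      (∀ i, i ∉ S → a i ≤ ε * G) →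
      ∑ i ∈ Sᶜ, a i ^ n ≤ (1 - δ) * (R ^ n - ∑ i ∈ S, a i ^ n) → Packing n N R a := by
  obtain ⟨δ₁, hδ₁, hδ₁le, hδ₁half⟩ : ∃ δ₁ : ℝ, 0 < δ₁ ∧ δ₁ ≤ δ ∧ δ₁ ≤ 1 / 2 :=
    ⟨min δ (1 / 2), lt_min hδ (by norm_num), min_le_left _ _, min_le_right _ _⟩
  have hn0 : 0 < n := by omega
  have hnR : (2 : ℝ) ≤ (n : ℝ) := by exact_mod_cast hn
  obtain ⟨εb, hεb, hbig⟩ := big_dust_packing n hn (δ₁ / 8) (by positivity)
  obtain ⟨εd, hεd, hdust⟩ := dust_packing n hn (δ₁ / 8) (by positivity)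
  obtain ⟨θ, hθdef⟩ : ∃ θ : ℝ, θ = δ₁ / (64 * (n : ℝ)) := ⟨_, rfl⟩
  have hθ0 : 0 < θ := by
    rw [hθdef]
    positivity
  have hθn : 64 * ((n : ℝ) * θ) = δ₁ := by
    rw [hθdef]
    field_simp
  have hθle : θ ≤ 1 / 256 := by
    have h1 : 2 * θ ≤ (n : ℝ) * θ := mul_le_mul_of_nonneg_right hnR hθ0.le
    linarith
  obtain ⟨ε₂, hε₂0, hε₂b, hε₂d, hε₂δ⟩ : ∃ ε₂ : ℝ, 0 < ε₂ ∧ ε₂ ≤ εb ∧ ε₂ ≤ εd ∧
      ε₂ ≤ δ₁ / 16 :=
    ⟨min (min εb εd) (δ₁ / 16), lt_min (lt_min hεb hεd) (by positivity),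
      le_trans (min_le_left _ _) (min_le_left _ _),
      le_trans (min_le_left _ _) (min_le_right _ _), min_le_right _ _⟩
  refine ⟨ε₂ * θ / 4, by positivity, ?_⟩
  intro m N R G a S hm hS hG hmG ha hM hsmall hvol
  have hmR : (1 : ℝ) ≤ (m : ℝ) := by exact_mod_cast hm
  have hGmG : G ≤ (m : ℝ) * G := by
    have h1 : 1 * G ≤ (m : ℝ) * G := mul_le_mul_of_nonneg_right hmR hG.le
    linarith
  have hGR : G ≤ R := le_trans hGmG hmG
  have hR : 0 < R := lt_of_lt_of_le hG hGR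
  obtain ⟨ρ, hρ⟩ := exists_antitone_enum a S
  obtain ⟨β, hβdef⟩ : ∃ β : Fin m → ℝ,
      ∀ j, β j = if h : j.val < S.card then a (ρ ⟨j.val, h⟩).1 else 0 := ⟨_, fun _ => rfl⟩
  have hβ0 : ∀ j, 0 ≤ β j := by
    intro j
    rw [hβdef]
    split_ifs
    · exact (ha _).le
    · exact le_refl _
  have hβsum : ∑ j, β j ≤ R - m * G := by
    have h1 := top_sum_le (m := m) a S ρ (R - m * G) hM
    have h2 : ∑ j, β j =
        ∑ j : Fin m, (if h : j.val < S.card then a (ρ ⟨j.val, h⟩).1 else 0) :=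
      Finset.sum_congr rfl (fun j _ => hβdef j)
    rw [h2]
    exact h1
  obtain ⟨slot, hslot, hslotle⟩ := exists_slots (n := n) (m := m) (k := S.card) hn0 hS
  obtain ⟨ef0, hef0def⟩ : ∃ ef0 : {i : Fin N // i ∈ S} → (Fin n → Fin m),
      ef0 = fun x => slot (ρ.symm x) := ⟨_, rfl⟩
  have hef0 : Function.Injective ef0 := by
    rw [hef0def]
    exact fun x y h => ρ.symm.injective (hslot h)
  have hle : ∀ (x : {i : Fin N // i ∈ S}) (p : Fin n), a x.1 ≤ β (ef0 x p) := by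
    intro x p
    rw [hef0def]
    show a x.1 ≤ β (slot (ρ.symm x) p)
    have h1 := hslotle (ρ.symm x) p
    have h2 : (slot (ρ.symm x) p).val < S.card := lt_of_le_of_lt h1 (ρ.symm x).isLt
    rw [hβdef, dif_pos h2]
    have h3 : a (ρ (ρ.symm x)).1 ≤ a (ρ ⟨(slot (ρ.symm x) p).val, h2⟩).1 :=
      hρ (by
        rw [Fin.le_def]
        exact h1)
    rw [Equiv.apply_symm_apply] at h3
    exact h3
  have hAle : ∑ i ∈ S, a i ^ n ≤ (R - G) ^ n := by
    have h1 := big_volume_le_m a ha S ef0 hef0 β hβ0 hle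
    have h2 : (∑ j, β j) ^ n ≤ (R - G) ^ n :=
      pow_le_pow_left₀ (Finset.sum_nonneg (fun j _ => hβ0 j)) (by linarith) n
    linarith
  obtain ⟨M, s, t, ht0, htle, htlt, hsM, hMt, hst⟩ :=
    scale_params_m m hm R G θ β hG hβ0 hβsum hθ0 hθle
  obtain ⟨sz, hsz1, hsz2, hsz3⟩ := exists_sz (n := n) hn0 s
  have hθG : θ * G ≤ 1 / 256 * G := mul_le_mul_of_nonneg_right hθle hG.le
  have ht256 : t ≤ G / 256 := by linarith
  obtain ⟨ν, hνdef⟩ : ∃ ν : ℝ, ν = δ₁ * G / (8 * (n : ℝ) * R) := ⟨_, rfl⟩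
  have hν0 : 0 < ν := by
    rw [hνdef]
    positivity
  have hνR : (n : ℝ) * ν * R = δ₁ * G / 8 := by
    rw [hνdef]
    field_simp
  have hνR32 : ν * R ≤ G / 32 := by
    have h1 : 2 * (ν * R) ≤ (n : ℝ) * (ν * R) :=
      mul_le_mul_of_nonneg_right hnR (mul_pos hν0 hR).le
    have h2 : δ₁ * G ≤ 1 / 2 * G := mul_le_mul_of_nonneg_right hδ₁half hG.le
    have h3 : (n : ℝ) * (ν * R) = δ₁ * G / 8 := by
      rw [← hνR]
      ring
    linarith
  have hν1 : ν ≤ 1 / 32 := by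
    have h1 : ν * R ≤ 1 / 32 * R := by linarith
    exact le_of_mul_le_mul_right h1 hR
  have hν1' : 0 < 1 - ν := by linarith
  have hszt : ∀ κc : Fin n → Fin m, ∃ p, β (κc p) + G / 2 < (sz κc : ℝ) * t := by
    intro κc
    obtain ⟨p, hp⟩ := hsz2 κc
    exact ⟨p, by
      rw [hp]
      exact hst (κc p)⟩
  have hszR : ∀ κc : Fin n → Fin m, (sz κc : ℝ) * t ≤ R := by
    intro κc
    have h1 : sz κc ≤ M := by
      rw [← hsM]
      exact le_trans (hsz1 κc ⟨0, hn0⟩)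
        (Finset.single_le_sum (fun j _ => Nat.zero_le (s j)) (Finset.mem_univ (κc ⟨0, hn0⟩)))
    rw [← hMt]
    exact mul_le_mul_of_nonneg_right (by exact_mod_cast h1) ht0.le
  have hszpos : ∀ κc : Fin n → Fin m, 0 < (sz κc : ℝ) * t := by
    intro κc
    obtain ⟨p, hp⟩ := hszt κc
    linarith [hβ0 (κc p)]
  have hszt1 : ∀ κc : Fin n → Fin m, t ≤ (sz κc : ℝ) * t := by
    intro κc
    have h1 : 0 < sz κc := by
      rcases Nat.eq_zero_or_pos (sz κc) with h | h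
      · exfalso
        have h2 := hszpos κc
        rw [h] at h2
        simp at h2
      · exact h
    have h2 : (1 : ℝ) ≤ (sz κc : ℝ) := by exact_mod_cast h1
    have h3 : 1 * t ≤ (sz κc : ℝ) * t := mul_le_mul_of_nonneg_right h2 ht0.le
    linarith
  have hτ0 : 0 < (1 - ν) * t := mul_pos hν1' ht0
  have hτt : (1 - ν) * t < t := by
    have h1 := mul_pos hν0 ht0
    linarith
  have hC0 : ∀ κc : Fin n → Fin m, 0 < (1 - ν) * ((sz κc : ℝ) * t) :=
    fun κc => mul_pos hν1' (hszpos κc)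
  have hC : ∀ κc : Fin n → Fin m, (1 - ν) * ((sz κc : ℝ) * t) < (sz κc : ℝ) * t := by
    intro κc
    have h1 := mul_pos hν0 (hszpos κc)
    linarith
  have hcells := packing_coarse_fine_m hn0 m M s hsM sz hsz1 hsz3 t ht0
    (fun κc : Fin n → Fin m => (1 - ν) * ((sz κc : ℝ) * t)) hC0 hC ((1 - ν) * t) hτ0 hτt
  rw [hMt] at hcells
  have hV : 0 ≤ R ^ n - ∑ i ∈ S, a i ^ n := by
    have h1 : (R - G) ^ n ≤ R ^ n := pow_le_pow_left₀ (by linarith) (by linarith) n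
    linarith
  have hc := coarse_fine_card_m n m M s sz
  have hcs := cap_sum_ge_m (α := Fin n → Fin m) n ν t R M _ sz hν1'.le ht0.le hc hMt
  have hcl := cap_lower_arith n (by omega) δ₁ ν R G (∑ i ∈ S, a i ^ n) hδ₁.le hG.le hGR
    (by linarith) hνR hAle
  have hNe : Nonempty (Fin n → Fin m) := ⟨fun _ => ⟨0, hm⟩⟩
  refine coarse_assemble_gen hn δ₁ εb εd ε₂ hδ₁ hδ₁half hbig hdust hε₂0 hε₂b hε₂d hε₂δ
    (fun κc : Fin n → Fin m => (1 - ν) * ((sz κc : ℝ) * t)) ((1 - ν) * t) R hτ0 ?_ hcells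
    a ha S ef0 hef0 ?_ ?_ (le_trans hcl hcs) hV ?_
  · intro c
    exact mul_le_mul_of_nonneg_left (hszt1 c) hν1'.le
  · intro x
    obtain ⟨p, hp⟩ := hszt (ef0 x)
    have h1 := hle x p
    exact gap_m R G (a x.1) t ((sz (ef0 x) : ℝ) * t) ν hG ht0 ht256 hν0.le hνR32
      (by linarith) (hszR _)
  · intro i hi
    have h1 : ν * t ≤ 1 / 32 * t := mul_le_mul_of_nonneg_right hν1 ht0.le
    have h2 : θ * G / 4 ≤ (1 - ν) * t := by
      have h3 : (1 - ν) * t = t - ν * t := by ring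
      rw [h3]
      have h4 := mul_pos hθ0 hG
      linarith
    calc a i ≤ ε₂ * θ / 4 * G := hsmall i hi
      _ = ε₂ * (θ * G / 4) := by ring
      _ ≤ ε₂ * ((1 - ν) * t) := mul_le_mul_of_nonneg_left h2 hε₂0.le
  · calc ∑ i ∈ Sᶜ, a i ^ n ≤ (1 - δ) * (R ^ n - ∑ i ∈ S, a i ^ n) := hvol
      _ ≤ (1 - δ₁) * (R ^ n - ∑ i ∈ S, a i ^ n) :=
          mul_le_mul_of_nonneg_right (by linarith) hV

end Vale.Agent.Lib.P209
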